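import Vale.Agent.P229.Defs

/-!
P229, geometry: the Darboux equation of a conformal isometric immersion of the plane in space.
-/

namespace Vale.Agent.P229
namespace Geom

open Real Set Filter
open scoped ContDiff Topology RealInnerProductSpace

variable {G : Type} [NormedAddCommGroup G] [NormedSpace ℝ G]

lemma contDiffOn_dir {f : E2 → G} {U : Set E2} (hU : IsOpen U) (hf : ContDiffOn ℝ ∞ f U) (v : E2) :
    ContDiffOn ℝ ∞ (fun y => fderiv ℝ f y v) U :=
  (hf.fderiv_of_isOpen hU (by simp)).clm_apply contDiffOn_const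

lemma diffAt_of_on {f : E2 → G} {U : Set E2} (hU : IsOpen U) (hf : ContDiffOn ℝ ∞ f U) {x : E2}
    (hx : x ∈ U) : DifferentiableAt ℝ f x :=
  (hf.contDiffAt (hU.mem_nhds hx)).differentiableAt (by simp)

lemma dir_comm {f : E2 → G} {U : Set E2} (hU : IsOpen U) (hf : ContDiffOn ℝ ∞ f U) {x : E2}
    (hx : x ∈ U) (v w : E2) :
    fderiv ℝ (fun y => fderiv ℝ f y v) x w = fderiv ℝ (fun y => fderiv ℝ f y w) x v := by
  have h := hf.contDiffAt (hU.mem_nhds hx)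
  have hd : DifferentiableAt ℝ (fderiv ℝ f) x :=
    diffAt_of_on hU (hf.fderiv_of_isOpen hU (by simp)) hx
  rw [fderiv_clm_apply hd (differentiableAt_const _),
    fderiv_clm_apply hd (differentiableAt_const _)]
  simpa using (h.isSymmSndFDerivAt (by simp; exact ENat.LEInfty.out)).eq w v

/-- Differentiate an identity between an inner product and a function on an open set. -/
lemma deriv_inner_eq {g h : E2 → E3} {φ : E2 → ℝ} {U : Set E2} (hU : IsOpen U)
    (hg : ContDiffOn ℝ ∞ g U) (hh : ContDiffOn ℝ ∞ h U) (he : ∀ y ∈ U, ⟪g y, h y⟫ = φ y)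
    {x : E2} (hx : x ∈ U) (v : E2) :
    ⟪g x, fderiv ℝ h x v⟫ + ⟪fderiv ℝ g x v, h x⟫ = fderiv ℝ φ x v := by
  rw [← fderiv_inner_apply ℝ (diffAt_of_on hU hg hx) (diffAt_of_on hU hh hx) v]
  have e : (fun y => ⟪g y, h y⟫) =ᶠ[𝓝 x] φ :=
    eventuallyEq_of_mem (hU.mem_nhds hx) he
  rw [e.fderiv_eq]

lemma fderiv_expFac {σ : E2 → ℝ} (hσ : Differentiable ℝ σ) (x v : E2) :
    fderiv ℝ (fun y => Real.exp (2 * σ y)) x v = Real.exp (2 * σ x) * (2 * fderiv ℝ σ x v) := by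
  rw [(((hσ x).hasFDerivAt.const_mul 2).exp).fderiv]
  simp

lemma fderiv_mul_expFac {σ p : E2 → ℝ} (hσ : Differentiable ℝ σ) (hp : Differentiable ℝ p)
    (x v : E2) :
    fderiv ℝ (fun y => p y * Real.exp (2 * σ y)) x v =
      fderiv ℝ p x v * Real.exp (2 * σ x) + p x * (Real.exp (2 * σ x) * (2 * fderiv ℝ σ x v)) := by
  rw [((hp x).hasFDerivAt.fun_mul (((hσ x).hasFDerivAt.const_mul 2).exp)).fderiv]
  simp
  ring

/-- In space the orthogonal complement of two orthogonal vectors is a line. -/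
lemma line_algebra {u v e : E3} {E : ℝ} (hE : 0 < E) (huu : ⟪u, u⟫ = E) (huv : ⟪u, v⟫ = 0)
    (hvv : ⟪v, v⟫ = E) (he : ‖e‖ = 1) {P Q R : E3} (hP : ⟪u, P⟫ = 0 ∧ ⟪v, P⟫ = 0)
    (hQ : ⟪u, Q⟫ = 0 ∧ ⟪v, Q⟫ = 0) (hR : ⟪u, R⟫ = 0 ∧ ⟪v, R⟫ = 0) :
    (⟪e, P⟫ * ⟪e, Q⟫ - ⟪e, R⟫ ^ 2) * E =
      (E - (⟪e, u⟫ ^ 2 + ⟪e, v⟫ ^ 2)) * (⟪P, Q⟫ - ⟪R, R⟫) := by
  have hli : LinearIndependent ℝ ![u, v] := by
    refine LinearIndependent.pair_iff.2 fun s t h => ?_
    have h1 := congrArg (fun w => ⟪u, w⟫) h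
    have h2 := congrArg (fun w => ⟪v, w⟫) h
    have hvu : ⟪v, u⟫ = 0 := by rw [real_inner_comm]; exact huv
    simp only [inner_add_right, real_inner_smul_right, huu, huv, hvu, hvv, mul_zero, add_zero,
      zero_add, inner_zero_right] at h1 h2
    exact ⟨(mul_eq_zero.1 h1).resolve_right hE.ne', (mul_eq_zero.1 h2).resolve_right hE.ne'⟩
  set W := Submodule.span ℝ (Set.range ![u, v]) with hW
  have hfW : Module.finrank ℝ W = 2 := by
    rw [hW, finrank_span_eq_card hli]; simp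
  have hfo : Module.finrank ℝ Wᗮ = 1 := by
    have h := W.finrank_add_finrank_orthogonal
    rw [hfW, finrank_euclideanSpace_fin] at h
    omega
  have hmem : ∀ {w : E3}, ⟪u, w⟫ = 0 ∧ ⟪v, w⟫ = 0 → w ∈ Wᗮ := by
    intro w hw
    rw [Submodule.mem_orthogonal]
    intro z hz
    induction hz using Submodule.span_induction with
    | mem z hz =>
      obtain ⟨i, rfl⟩ := hz
      fin_cases i
      · exact hw.1
      · exact hw.2
    | zero => simp
    | add a b _ _ ha hb => rw [inner_add_left, ha, hb, add_zero]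
    | smul c a _ ha => rw [real_inner_smul_left, ha, mul_zero]
  obtain ⟨n, -, hn⟩ := finrank_eq_one_iff'.1 hfo
  have hvu : ⟪v, u⟫ = 0 := by rw [real_inner_comm]; exact huv
  obtain ⟨r, hr⟩ : ∃ r : E3, r = e - (⟪e, u⟫ / E) • u - (⟪e, v⟫ / E) • v := ⟨_, rfl⟩
  have hr0 : ⟪u, r⟫ = 0 ∧ ⟪v, r⟫ = 0 := by
    simp only [hr, inner_sub_right, real_inner_smul_right, huu, huv, hvu, hvv,
      real_inner_comm u e, real_inner_comm v e]
    constructor <;> field_simp <;> ring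
  obtain ⟨cP, hcP⟩ := hn ⟨P, hmem hP⟩
  obtain ⟨cQ, hcQ⟩ := hn ⟨Q, hmem hQ⟩
  obtain ⟨cR, hcR⟩ := hn ⟨R, hmem hR⟩
  obtain ⟨cr, hcr⟩ := hn ⟨r, hmem hr0⟩
  have eP : P = cP • (n : E3) := (congrArg Subtype.val hcP).symm
  have eQ : Q = cQ • (n : E3) := (congrArg Subtype.val hcQ).symm
  have eR : R = cR • (n : E3) := (congrArg Subtype.val hcR).symm
  have er : r = cr • (n : E3) := (congrArg Subtype.val hcr).symm
  have hee : ⟪e, e⟫ = 1 := by rw [real_inner_self_eq_norm_sq, he, one_pow]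
  have hrr : ⟪r, r⟫ * E = E - (⟪e, u⟫ ^ 2 + ⟪e, v⟫ ^ 2) := by
    simp only [hr, inner_sub_left, inner_sub_right, real_inner_smul_left, real_inner_smul_right,
      hee, huu, huv, hvu, hvv, real_inner_comm e u, real_inner_comm e v]
    field_simp
    ring
  have he' : ∀ {w : E3}, ⟪u, w⟫ = 0 ∧ ⟪v, w⟫ = 0 → ⟪e, w⟫ = ⟪r, w⟫ := fun {w} hw => by
    simp [hr, inner_sub_left, real_inner_smul_left, hw.1, hw.2]
  rw [← hrr, he' hP, he' hQ, he' hR, eP, eQ, eR, er]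
  simp only [real_inner_smul_left, real_inner_smul_right]
  ring

/-- The Darboux equation for a height function of a conformal immersion. -/
theorem darboux {f : E2 → E3} {σ : E2 → ℝ} {U : Set E2} (hU : IsOpen U) (hf : ContDiffOn ℝ ∞ f U)
    (hσ : ContDiff ℝ ∞ σ)
    (hc : ∀ x ∈ U, ⟪d1 f x, d1 f x⟫ = Real.exp (2 * σ x) ∧ ⟪d1 f x, d2 f x⟫ = 0 ∧
      ⟪d2 f x, d2 f x⟫ = Real.exp (2 * σ x))
    {e : E3} (he : ‖e‖ = 1) (a : E3) :
    ∀ x ∈ U, H11 σ 1 (fun y => ⟪e, f y - a⟫) x * H22 σ 1 (fun y => ⟪e, f y - a⟫) x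
        - H12 σ 1 (fun y => ⟪e, f y - a⟫) x ^ 2
      = -lap σ x * (Real.exp (2 * σ x) -
          (d1 (fun y => ⟪e, f y - a⟫) x ^ 2 + d2 (fun y => ⟪e, f y - a⟫) x ^ 2)) := by
  intro x hx
  have hσd : Differentiable ℝ σ := hσ.differentiable (by simp)
  have g1 : ContDiffOn ℝ ∞ (d1 f) U := contDiffOn_dir hU hf _
  have g2 : ContDiffOn ℝ ∞ (d2 f) U := contDiffOn_dir hU hf _
  have s12 : ∀ y ∈ U, d1 (d2 f) y = d2 (d1 f) y := fun y hy => dir_comm hU hf hy _ _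
  -- scalar products of first and second derivatives
  have a1 : ∀ y ∈ U, ⟪d1 (d1 f) y, d1 f y⟫ = d1 σ y * Real.exp (2 * σ y) ∧
      ⟪d2 (d1 f) y, d1 f y⟫ = d2 σ y * Real.exp (2 * σ y) := fun y hy => by
    have k1 := deriv_inner_eq hU g1 g1 (fun w hw => (hc w hw).1) hy (1, 0)
    have k2 := deriv_inner_eq hU g1 g1 (fun w hw => (hc w hw).1) hy (0, 1)
    rw [fderiv_expFac hσd, real_inner_comm] at k1 k2
    simp only [d1, d2] at *
    constructor <;> linarith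
  have a2 : ∀ y ∈ U, ⟪d2 (d1 f) y, d2 f y⟫ = d1 σ y * Real.exp (2 * σ y) ∧
      ⟪d2 (d2 f) y, d2 f y⟫ = d2 σ y * Real.exp (2 * σ y) := fun y hy => by
    have k1 := deriv_inner_eq hU g2 g2 (fun w hw => (hc w hw).2.2) hy (1, 0)
    have k2 := deriv_inner_eq hU g2 g2 (fun w hw => (hc w hw).2.2) hy (0, 1)
    rw [fderiv_expFac hσd, real_inner_comm] at k1 k2
    have := s12 y hy
    simp only [d1, d2] at *
    rw [← this]
    constructor <;> linarith
  have a3 : ∀ y ∈ U, ⟪d1 (d1 f) y, d2 f y⟫ = -(d2 σ y) * Real.exp (2 * σ y) ∧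
      ⟪d2 (d2 f) y, d1 f y⟫ = -(d1 σ y) * Real.exp (2 * σ y) := fun y hy => by
    have k1 : ⟪d1 f y, d1 (d2 f) y⟫ + ⟪d1 (d1 f) y, d2 f y⟫
        = fderiv ℝ (fun _ : E2 => (0 : ℝ)) y (1, 0) :=
      deriv_inner_eq hU g1 g2 (fun w hw => (hc w hw).2.1) hy (1, 0)
    have k2 : ⟪d1 f y, d2 (d2 f) y⟫ + ⟪d2 (d1 f) y, d2 f y⟫
        = fderiv ℝ (fun _ : E2 => (0 : ℝ)) y (0, 1) :=
      deriv_inner_eq hU g1 g2 (fun w hw => (hc w hw).2.1) hy (0, 1)
    rw [fderiv_fun_const, Pi.zero_apply, zero_apply, s12 y hy,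
      real_inner_comm (d2 (d1 f) y) (d1 f y)] at k1
    rw [fderiv_fun_const, Pi.zero_apply, zero_apply,
      real_inner_comm (d2 (d2 f) y) (d1 f y)] at k2
    have := (a1 y hy).2
    have := (a2 y hy).1
    constructor <;> linarith
  -- Gauss equation
  have gauss : ⟪d1 (d1 f) x, d2 (d2 f) x⟫ - ⟪d2 (d1 f) x, d2 (d1 f) x⟫ =
      -(lap σ x) * Real.exp (2 * σ x) -
        2 * (d1 σ x ^ 2 + d2 σ x ^ 2) * Real.exp (2 * σ x) := by
    have k1 := deriv_inner_eq hU (contDiffOn_dir hU g1 (1, 0)) g2 (fun w hw => (a3 w hw).1) hx (0, 1)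
    have k2 := deriv_inner_eq hU (contDiffOn_dir hU g1 (0, 1)) g2 (fun w hw => (a2 w hw).1) hx (1, 0)
    have hs : ∀ w : E2, Differentiable ℝ fun y => fderiv ℝ σ y w := fun w =>
      ((hσ.fderiv_right (m := ∞) (by simp)).clm_apply contDiff_const).differentiable (by simp)
    have m1 : fderiv ℝ (fun y => -(d2 σ y) * Real.exp (2 * σ y)) x (0, 1)
        = -(d2 (d2 σ) x) * Real.exp (2 * σ x) +
          -(d2 σ x) * (Real.exp (2 * σ x) * (2 * d2 σ x)) := by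
      rw [fderiv_mul_expFac (p := fun y => -(d2 σ y)) hσd (hs _).neg, fderiv_fun_neg]; rfl
    have m2 : fderiv ℝ (fun y => d1 σ y * Real.exp (2 * σ y)) x (1, 0)
        = d1 (d1 σ) x * Real.exp (2 * σ x) + d1 σ x * (Real.exp (2 * σ x) * (2 * d1 σ x)) := by
      rw [fderiv_mul_expFac (p := d1 σ) hσd (hs _)]; rfl
    rw [m1] at k1
    rw [m2] at k2
    have sym : fderiv ℝ (fun y => fderiv ℝ (d1 f) y (1, 0)) x (0, 1)
        = fderiv ℝ (fun y => fderiv ℝ (d1 f) y (0, 1)) x (1, 0) := dir_comm hU g1 hx _ _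
    have hs12 := s12 x hx
    simp only [d1, d2, lap] at *
    rw [sym] at k1
    rw [hs12] at k2
    linarith
  -- the height function
  have hz : ∀ y ∈ U, ∀ v, fderiv ℝ (fun w => ⟪e, f w - a⟫) y v = ⟪e, fderiv ℝ f y v⟫ :=
    fun y hy v => by
      rw [fderiv_inner_apply ℝ (differentiableAt_const e)
        ((diffAt_of_on hU hf hy).sub_const a), fderiv_sub_const]
      simp
  have hz2 : ∀ v w, fderiv ℝ (fun y => fderiv ℝ (fun u => ⟪e, f u - a⟫) y v) x w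
      = ⟪e, fderiv ℝ (fun y => fderiv ℝ f y v) x w⟫ := fun v w => by
    have ev : (fun y => fderiv ℝ (fun u => ⟪e, f u - a⟫) y v) =ᶠ[𝓝 x]
        fun y => ⟪e, fderiv ℝ f y v⟫ :=
      eventuallyEq_of_mem (hU.mem_nhds hx) fun y hy => hz y hy v
    rw [ev.fderiv_eq, fderiv_inner_apply ℝ (differentiableAt_const e)
      (diffAt_of_on hU (contDiffOn_dir hU hf v) hx)]
    simp
  obtain ⟨huu, huv, hvv⟩ := hc x hx
  obtain ⟨b111, b121⟩ := a1 x hx
  obtain ⟨b122, b222⟩ := a2 x hx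
  obtain ⟨b112, b221⟩ := a3 x hx
  have hvu : ⟪d2 f x, d1 f x⟫ = 0 := by rw [real_inner_comm]; exact huv
  have hE := Real.exp_pos (2 * σ x)
  have key := line_algebra hE huu huv hvv he
    (P := d1 (d1 f) x - d1 σ x • d1 f x + d2 σ x • d2 f x)
    (Q := d2 (d2 f) x + d1 σ x • d1 f x - d2 σ x • d2 f x)
    (R := d2 (d1 f) x - d2 σ x • d1 f x - d1 σ x • d2 f x)
    (by
      simp only [inner_add_right, inner_sub_right, real_inner_smul_right, huu, huv, hvu, hvv,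
        real_inner_comm (d1 (d1 f) x), b111, b112]
      constructor <;> ring)
    (by
      simp only [inner_add_right, inner_sub_right, real_inner_smul_right, huu, huv, hvu, hvv,
        real_inner_comm (d2 (d2 f) x), b221, b222]
      constructor <;> ring)
    (by
      simp only [inner_sub_right, real_inner_smul_right, huu, huv, hvu, hvv,
        real_inner_comm (d2 (d1 f) x), b121, b122]
      constructor <;> ring)
  have NN : ⟪d1 (d1 f) x - d1 σ x • d1 f x + d2 σ x • d2 f x,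
        d2 (d2 f) x + d1 σ x • d1 f x - d2 σ x • d2 f x⟫ -
      ⟪d2 (d1 f) x - d2 σ x • d1 f x - d1 σ x • d2 f x,
        d2 (d1 f) x - d2 σ x • d1 f x - d1 σ x • d2 f x⟫ = -(lap σ x) * Real.exp (2 * σ x) := by
    simp only [inner_add_left, inner_sub_left, inner_add_right, inner_sub_right,
      real_inner_smul_left, real_inner_smul_right, huu, huv, hvu, hvv,
      real_inner_comm (d2 (d2 f) x) (d1 f x), real_inner_comm (d2 (d2 f) x) (d2 f x),
      real_inner_comm (d2 (d1 f) x) (d1 f x), real_inner_comm (d2 (d1 f) x) (d2 f x),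
      b111, b112, b121, b122, b221, b222]
    linear_combination gauss
  rw [NN] at key
  simp only [inner_add_right, inner_sub_right, real_inner_smul_right] at key
  simp only [H11, H12, H22, one_mul]
  rw [show d1 (d1 fun y => ⟪e, f y - a⟫) x = ⟪e, d1 (d1 f) x⟫ from hz2 _ _,
    show d2 (d1 fun y => ⟪e, f y - a⟫) x = ⟪e, d2 (d1 f) x⟫ from hz2 _ _,
    show d2 (d2 fun y => ⟪e, f y - a⟫) x = ⟪e, d2 (d2 f) x⟫ from hz2 _ _,
    show d1 (fun y => ⟪e, f y - a⟫) x = ⟪e, d1 f x⟫ from hz x hx _,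
    show d2 (fun y => ⟪e, f y - a⟫) x = ⟪e, d2 f x⟫ from hz x hx _]
  refine mul_right_cancel₀ hE.ne' ?_
  linear_combination key

end Geom
end Vale.Agent.P229
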