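import Vale.Agent.P229.Line
import Vale.Agent.P229.Psi

/-!
P229, geometry: change of coordinates by a similarity, and second derivative bounds.
-/

namespace Vale.Agent.P229.Geom

open Set Filter
open scoped ContDiff Topology RealInnerProductSpace

/-- The rotation with cosine `c` and sine `s`. -/
noncomputable def rot (c s : ℝ) : E2 →L[ℝ] E2 :=
  (c • ContinuousLinearMap.fst ℝ ℝ ℝ - s • ContinuousLinearMap.snd ℝ ℝ ℝ).prod
    (s • ContinuousLinearMap.fst ℝ ℝ ℝ + c • ContinuousLinearMap.snd ℝ ℝ ℝ)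

@[simp] lemma rot_apply (c s : ℝ) (u : E2) :
    rot c s u = (c * u.1 - s * u.2, s * u.1 + c * u.2) := by
  simp [rot]

lemma sqn_rot {c s : ℝ} (h : c ^ 2 + s ^ 2 = 1) (u : E2) : sqn (rot c s u) = sqn u := by
  simp only [rot_apply, sqn]
  linear_combination (u.1 ^ 2 + u.2 ^ 2) * h

/-- A similarity. -/
noncomputable def simMap (x0 : E2) (ρ c s : ℝ) (u : E2) : E2 := x0 + ρ • rot c s u

lemma contDiff_simMap (x0 : E2) (ρ c s : ℝ) : ContDiff ℝ ∞ (simMap x0 ρ c s) :=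
  contDiff_const.add ((rot c s).contDiff.const_smul ρ)

lemma fderiv_comp_sim {g : E2 → ℝ} (x0 : E2) (ρ c s : ℝ) (u v : E2)
    (hg : DifferentiableAt ℝ g (simMap x0 ρ c s u)) :
    fderiv ℝ (fun w => g (simMap x0 ρ c s w)) u v
      = fderiv ℝ g (simMap x0 ρ c s u) (ρ • rot c s v) := by
  have h : HasFDerivAt (simMap x0 ρ c s) (ρ • rot c s) u :=
    (((rot c s).hasFDerivAt (x := u)).const_smul ρ).const_add x0
  have h2 := hg.hasFDerivAt.comp u h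
  rw [show (fun w => g (simMap x0 ρ c s w)) = g ∘ simMap x0 ρ c s from rfl, h2.fderiv]
  rfl

lemma clm_pair (f : E2 →L[ℝ] ℝ) (a b : ℝ) : f (a, b) = a * f (1, 0) + b * f (0, 1) := by
  have : ((a, b) : E2) = a • ((1, 0) : E2) + b • ((0, 1) : E2) := by ext <;> simp
  rw [this, map_add, map_smul, map_smul, smul_eq_mul, smul_eq_mul]

lemma d1_comp_sim {g : E2 → ℝ} (hg : ContDiff ℝ ∞ g) (x0 : E2) (ρ c s : ℝ) :
    d1 (fun w => g (simMap x0 ρ c s w)) = fun u =>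
      ρ * c * d1 g (simMap x0 ρ c s u) + ρ * s * d2 g (simMap x0 ρ c s u) := by
  funext u
  rw [d1, fderiv_comp_sim x0 ρ c s u _ (hg.differentiable (by simp) _)]
  simp only [rot_apply, mul_one, mul_zero, sub_zero, add_zero, Prod.smul_mk, smul_eq_mul]
  rw [clm_pair]
  rfl

lemma d2_comp_sim {g : E2 → ℝ} (hg : ContDiff ℝ ∞ g) (x0 : E2) (ρ c s : ℝ) :
    d2 (fun w => g (simMap x0 ρ c s w)) = fun u =>
      -(ρ * s) * d1 g (simMap x0 ρ c s u) + ρ * c * d2 g (simMap x0 ρ c s u) := by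
  funext u
  rw [d2, fderiv_comp_sim x0 ρ c s u _ (hg.differentiable (by simp) _)]
  simp only [rot_apply, mul_one, mul_zero, zero_sub, zero_add, Prod.smul_mk, smul_eq_mul]
  rw [clm_pair]
  simp [d1, d2]

lemma contDiff_d1g {g : E2 → ℝ} (hg : ContDiff ℝ ∞ g) : ContDiff ℝ ∞ (d1 g) :=
  (hg.fderiv_right le_rfl).clm_apply contDiff_const

lemma contDiff_d2g {g : E2 → ℝ} (hg : ContDiff ℝ ∞ g) : ContDiff ℝ ∞ (d2 g) :=
  (hg.fderiv_right le_rfl).clm_apply contDiff_const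

lemma d_lin {f g : E2 → ℝ} (hf : ContDiff ℝ ∞ f) (hg : ContDiff ℝ ∞ g) (a b : ℝ) (u v : E2) :
    fderiv ℝ (fun w => a * f w + b * g w) u v
      = a * fderiv ℝ f u v + b * fderiv ℝ g u v := by
  rw [fderiv_fun_add ((hf.differentiable (by simp) u).const_mul a)
    ((hg.differentiable (by simp) u).const_mul b), fderiv_const_mul (hf.differentiable (by simp) u),
    fderiv_const_mul (hg.differentiable (by simp) u)]
  rfl

lemma d1d1_comp_sim {g : E2 → ℝ} (hg : ContDiff ℝ ∞ g) (x0 : E2) (ρ c s : ℝ) (u : E2) :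
    d1 (d1 (fun w => g (simMap x0 ρ c s w))) u = ρ ^ 2 *
      (c ^ 2 * d1 (d1 g) (simMap x0 ρ c s u) + 2 * c * s * d2 (d1 g) (simMap x0 ρ c s u)
        + s ^ 2 * d2 (d2 g) (simMap x0 ρ c s u)) := by
  have h1 := contDiff_d1g hg
  have h2 := contDiff_d2g hg
  have hs := contDiff_simMap x0 ρ c s
  have e := d2_d1_commOn isOpen_univ hg.contDiffOn (mem_univ (simMap x0 ρ c s u))
  rw [d1_comp_sim hg, d1, d_lin (f := fun w => d1 g (simMap x0 ρ c s w))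
    (g := fun w => d2 g (simMap x0 ρ c s w)) (h1.comp hs) (h2.comp hs)]
  have k1 := congr_fun (d1_comp_sim h1 x0 ρ c s) u
  have k2 := congr_fun (d1_comp_sim h2 x0 ρ c s) u
  simp only [d1] at k1 k2 ⊢
  rw [k1, k2]
  simp only [d1, d2] at e ⊢
  rw [← e]
  ring

lemma d2d1_comp_sim {g : E2 → ℝ} (hg : ContDiff ℝ ∞ g) (x0 : E2) (ρ c s : ℝ) (u : E2) :
    d2 (d1 (fun w => g (simMap x0 ρ c s w))) u = ρ ^ 2 *
      (c * s * (d2 (d2 g) (simMap x0 ρ c s u) - d1 (d1 g) (simMap x0 ρ c s u))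
        + (c ^ 2 - s ^ 2) * d2 (d1 g) (simMap x0 ρ c s u)) := by
  have h1 := contDiff_d1g hg
  have h2 := contDiff_d2g hg
  have hs := contDiff_simMap x0 ρ c s
  have e := d2_d1_commOn isOpen_univ hg.contDiffOn (mem_univ (simMap x0 ρ c s u))
  rw [d1_comp_sim hg, d2, d_lin (f := fun w => d1 g (simMap x0 ρ c s w))
    (g := fun w => d2 g (simMap x0 ρ c s w)) (h1.comp hs) (h2.comp hs)]
  have k1 := congr_fun (d2_comp_sim h1 x0 ρ c s) u
  have k2 := congr_fun (d2_comp_sim h2 x0 ρ c s) u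
  simp only [d2] at k1 k2 ⊢
  rw [k1, k2]
  simp only [d1, d2] at e ⊢
  rw [← e]
  ring

lemma d2d2_comp_sim {g : E2 → ℝ} (hg : ContDiff ℝ ∞ g) (x0 : E2) (ρ c s : ℝ) (u : E2) :
    d2 (d2 (fun w => g (simMap x0 ρ c s w))) u = ρ ^ 2 *
      (s ^ 2 * d1 (d1 g) (simMap x0 ρ c s u) - 2 * c * s * d2 (d1 g) (simMap x0 ρ c s u)
        + c ^ 2 * d2 (d2 g) (simMap x0 ρ c s u)) := by
  have h1 := contDiff_d1g hg
  have h2 := contDiff_d2g hg
  have hs := contDiff_simMap x0 ρ c s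
  have e := d2_d1_commOn isOpen_univ hg.contDiffOn (mem_univ (simMap x0 ρ c s u))
  rw [d2_comp_sim hg, d2, d_lin (f := fun w => d1 g (simMap x0 ρ c s w))
    (g := fun w => d2 g (simMap x0 ρ c s w)) (h1.comp hs) (h2.comp hs)]
  have k1 := congr_fun (d2_comp_sim h1 x0 ρ c s) u
  have k2 := congr_fun (d2_comp_sim h2 x0 ρ c s) u
  simp only [d2] at k1 k2 ⊢
  rw [k1, k2]
  simp only [d1, d2] at e ⊢
  rw [← e]
  ring

lemma norm_iterated_comp_sim {g : E2 → ℝ} (hg : ContDiff ℝ ∞ g) (x0 : E2) {ρ c s : ℝ}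
    (hρ : 0 ≤ ρ) (hcs : c ^ 2 + s ^ 2 = 1) (k : ℕ) (u : E2) :
    ‖iteratedFDeriv ℝ k (fun w => g (simMap x0 ρ c s w)) u‖
      ≤ ‖iteratedFDeriv ℝ k g (simMap x0 ρ c s u)‖ * (2 * ρ) ^ k := by
  have e : (fun w => g (simMap x0 ρ c s w)) = (fun v => g (x0 + v)) ∘ (ρ • rot c s) := rfl
  have hsh : ContDiff ℝ (k : ℕ∞) (fun v : E2 => g (x0 + v)) :=
    (hg.comp (contDiff_const.add contDiff_id)).of_le (by exact_mod_cast le_top)
  rw [e, ContinuousLinearMap.iteratedFDeriv_comp_right _ hsh u le_rfl,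
    iteratedFDeriv_comp_add_left k x0]
  refine (ContinuousMultilinearMap.norm_compContinuousLinearMap_le _ _).trans ?_
  rw [Finset.prod_const, Finset.card_univ, Fintype.card_fin]
  refine mul_le_mul_of_nonneg_left (pow_le_pow_left₀ (norm_nonneg _) ?_ k) (norm_nonneg _)
  refine ContinuousLinearMap.opNorm_le_bound _ (by positivity) fun v => ?_
  show ‖ρ • rot c s v‖ ≤ 2 * ρ * ‖v‖
  have h1 : |v.1| ≤ ‖v‖ := norm_fst_le v
  have h2 : |v.2| ≤ ‖v‖ := norm_snd_le v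
  have hc : |c| ≤ 1 := abs_le_of_sq_le_sq (by nlinarith [sq_nonneg s]) zero_le_one
  have hs : |s| ≤ 1 := abs_le_of_sq_le_sq (by nlinarith [sq_nonneg c]) zero_le_one
  rw [norm_smul, Real.norm_eq_abs, abs_of_nonneg hρ, mul_assoc, mul_left_comm]
  refine mul_le_mul_of_nonneg_left ?_ hρ
  rw [rot_apply, Prod.norm_def, max_le_iff, Real.norm_eq_abs, Real.norm_eq_abs]
  have t : ∀ a x : ℝ, |a| ≤ 1 → |a * x| ≤ |x| := fun a x ha => by
    rw [abs_mul]; exact mul_le_of_le_one_left (abs_nonneg x) ha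
  constructor
  · refine (abs_sub _ _).trans ?_
    linarith [t c v.1 hc, t s v.2 hs]
  · refine (abs_add_le _ _).trans ?_
    linarith [t s v.1 hs, t c v.2 hc]

lemma norm_clm_pair {G : Type*} [NormedAddCommGroup G] [NormedSpace ℝ G] (A : E2 →L[ℝ] G) :
    ‖A‖ ≤ ‖A (1, 0)‖ + ‖A (0, 1)‖ := by
  refine A.opNorm_le_bound (by positivity) fun v => ?_
  have e : A v = v.1 • A (1, 0) + v.2 • A (0, 1) := by
    rw [← map_smul, ← map_smul, ← map_add]
    congr 1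
    ext <;> simp
  rw [e, add_mul]
  refine (norm_add_le _ _).trans ?_
  rw [norm_smul, norm_smul, mul_comm ‖v.1‖, mul_comm ‖v.2‖]
  exact add_le_add (mul_le_mul_of_nonneg_left (norm_fst_le v) (norm_nonneg _))
    (mul_le_mul_of_nonneg_left (norm_snd_le v) (norm_nonneg _))

lemma norm_iterated_two {g : E2 → ℝ} (u : E2) :
    ‖iteratedFDeriv ℝ 2 g u‖ = ‖fderiv ℝ (fderiv ℝ g) u‖ := by
  rw [← norm_iteratedFDeriv_fderiv, norm_iteratedFDeriv_one]

lemma d_d_eq {g : E2 → ℝ} (hg : ContDiff ℝ ∞ g) (u v w : E2) :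
    fderiv ℝ (fun x => fderiv ℝ g x v) u w = fderiv ℝ (fderiv ℝ g) u w v := by
  rw [fderiv_clm_apply ((hg.fderiv_right (m := ∞) le_rfl).differentiable (by simp) u)
    (differentiableAt_const v)]
  simp

lemma abs_second_le {g : E2 → ℝ} (hg : ContDiff ℝ ∞ g) (u : E2) :
    |d1 (d1 g) u| ≤ ‖iteratedFDeriv ℝ 2 g u‖ ∧ |d2 (d1 g) u| ≤ ‖iteratedFDeriv ℝ 2 g u‖ ∧
      |d2 (d2 g) u| ≤ ‖iteratedFDeriv ℝ 2 g u‖ := by
  rw [norm_iterated_two]
  have h : ∀ v w : E2, ‖v‖ ≤ 1 → ‖w‖ ≤ 1 →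
      |fderiv ℝ (fun x => fderiv ℝ g x v) u w| ≤ ‖fderiv ℝ (fderiv ℝ g) u‖ := fun v w hv hw => by
    rw [d_d_eq hg, ← Real.norm_eq_abs]
    refine ((fderiv ℝ (fderiv ℝ g) u w).le_opNorm v).trans ?_
    calc ‖fderiv ℝ (fderiv ℝ g) u w‖ * ‖v‖ ≤ ‖fderiv ℝ (fderiv ℝ g) u w‖ * 1 :=
          mul_le_mul_of_nonneg_left hv (norm_nonneg _)
      _ ≤ ‖fderiv ℝ (fderiv ℝ g) u‖ * ‖w‖ := by
          rw [mul_one]; exact ContinuousLinearMap.le_opNorm _ w
      _ ≤ _ := mul_le_of_le_one_right (ContinuousLinearMap.opNorm_nonneg _) hw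
  exact ⟨h _ _ (by simp) (by simp), h _ _ (by simp) (by simp), h _ _ (by simp) (by simp)⟩

lemma second_le_sum {g : E2 → ℝ} (hg : ContDiff ℝ ∞ g) (u : E2) :
    ‖iteratedFDeriv ℝ 2 g u‖
      ≤ |d1 (d1 g) u| + 2 * |d2 (d1 g) u| + |d2 (d2 g) u| := by
  rw [norm_iterated_two]
  refine (norm_clm_pair _).trans ?_
  have e := d2_d1_commOn isOpen_univ hg.contDiffOn (mem_univ u)
  have a1 := norm_clm_pair (fderiv ℝ (fderiv ℝ g) u (1, 0))
  have a2 := norm_clm_pair (fderiv ℝ (fderiv ℝ g) u (0, 1))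
  simp only [Real.norm_eq_abs, ← d_d_eq hg] at a1 a2
  unfold d1 d2 at e ⊢
  rw [← e] at a1
  linarith

/-- A symmetric two by two form is diagonal in a rotated frame, larger entry first. -/
lemma exists_rot (A B C : ℝ) :
    ∃ c s : ℝ, c ^ 2 + s ^ 2 = 1 ∧ c * s * (C - A) + (c ^ 2 - s ^ 2) * B = 0 ∧
      |s ^ 2 * A - 2 * c * s * B + c ^ 2 * C| ≤ |c ^ 2 * A + 2 * c * s * B + s ^ 2 * C| := by
  let F : ℝ → ℝ := fun θ => Real.cos θ * Real.sin θ * (C - A)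
    + (Real.cos θ ^ 2 - Real.sin θ ^ 2) * B
  have hF : Continuous F := by fun_prop
  have h0 : (0 : ℝ) ∈ uIcc (F 0) (F (Real.pi / 2)) := by
    simp only [F, Real.cos_zero, Real.sin_zero, Real.cos_pi_div_two, Real.sin_pi_div_two]
    norm_num [Set.mem_uIcc]
    rcases le_total B 0 with h | h <;> simp [h]
  obtain ⟨θ, -, hθ⟩ := intermediate_value_uIcc hF.continuousOn h0
  set c := Real.cos θ
  set s := Real.sin θ
  have h1 : c ^ 2 + s ^ 2 = 1 := Real.cos_sq_add_sin_sq θ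
  by_cases h : |s ^ 2 * A - 2 * c * s * B + c ^ 2 * C| ≤ |c ^ 2 * A + 2 * c * s * B + s ^ 2 * C|
  · exact ⟨c, s, h1, hθ, h⟩
  · refine ⟨-s, c, by linarith, ?_, ?_⟩
    · have : c * s * (C - A) + (c ^ 2 - s ^ 2) * B = 0 := hθ
      linear_combination -this
    · have := (not_le.mp h).le
      calc |c ^ 2 * A - 2 * -s * c * B + (-s) ^ 2 * C|
          = |c ^ 2 * A + 2 * c * s * B + s ^ 2 * C| := by ring_nf
        _ ≤ |s ^ 2 * A - 2 * c * s * B + c ^ 2 * C| := this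
        _ = |(-s) ^ 2 * A + 2 * -s * c * B + c ^ 2 * C| := by ring_nf

end Vale.Agent.P229.Geom
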