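import Vale.Agent.P229.Geom.Affine

/-!
P229, geometry: normalisation of a patch solution, given the Darboux equation.
-/

namespace Vale.Agent.P229.Geom

open Set Filter Metric
open scoped ContDiff Topology RealInnerProductSpace

/-- The Darboux equation of a height function, as a statement. -/
def DarbouxStmt : Prop :=
  ∀ (f : E2 → E3) (σ : E2 → ℝ) (U : Set E2), IsOpen U → ContDiffOn ℝ ∞ f U → ContDiff ℝ ∞ σ →
    (∀ x ∈ U, ⟪d1 f x, d1 f x⟫ = Real.exp (2 * σ x) ∧ ⟪d1 f x, d2 f x⟫ = 0 ∧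
      ⟪d2 f x, d2 f x⟫ = Real.exp (2 * σ x)) →
    ∀ e : E3, ‖e‖ = 1 → ∀ a : E3, ∀ x ∈ U,
      H11 σ 1 (fun y => ⟪e, f y - a⟫) x * H22 σ 1 (fun y => ⟪e, f y - a⟫) x
          - H12 σ 1 (fun y => ⟪e, f y - a⟫) x ^ 2
        = -lap σ x * (Real.exp (2 * σ x)
            - (d1 (fun y => ⟪e, f y - a⟫) x ^ 2 + d2 (fun y => ⟪e, f y - a⟫) x ^ 2))

/-- The quadratic model. -/
noncomputable def par (u : E2) : ℝ := u.1 * u.1 / 2

lemma contDiff_par : ContDiff ℝ ∞ par := by unfold par; fun_prop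

lemma fderiv_par :
    fderiv ℝ par = ⇑((ContinuousLinearMap.fst ℝ ℝ ℝ).smulRight (ContinuousLinearMap.fst ℝ ℝ ℝ) :
      E2 →L[ℝ] E2 →L[ℝ] ℝ) := by
  funext u
  have h1 : HasFDerivAt (fun v : E2 => v.1) (ContinuousLinearMap.fst ℝ ℝ ℝ) u := hasFDerivAt_fst
  have h := ((h1.mul h1).mul_const (1 / 2 : ℝ))
  rw [show par = fun v : E2 => v.1 * v.1 * (1 / 2) by funext v; unfold par; ring]
  refine h.fderiv.trans ?_
  ext <;> simp <;> ring

lemma par_high {k : ℕ} (hk : 3 ≤ k) (u : E2) : ‖iteratedFDeriv ℝ k par u‖ = 0 := by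
  obtain ⟨l, rfl⟩ : ∃ l, k = l + 3 := ⟨k - 3, by omega⟩
  rw [← norm_iteratedFDeriv_fderiv, ← norm_iteratedFDeriv_fderiv, fderiv_par]
  rw [show fderiv ℝ (⇑((ContinuousLinearMap.fst ℝ ℝ ℝ).smulRight (ContinuousLinearMap.fst ℝ ℝ ℝ) :
      E2 →L[ℝ] E2 →L[ℝ] ℝ)) = fun _ => _ from funext fun x => ContinuousLinearMap.fderiv _,
    iteratedFDeriv_const_of_ne (by omega)]
  simp

lemma par_d1 (u : E2) : d1 par u = u.1 := by simp [d1, fderiv_par]

lemma par_d2 (u : E2) : d2 par u = 0 := by simp [d2, fderiv_par]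

lemma par_second (u : E2) :
    d1 (d1 par) u = 1 ∧ d2 (d1 par) u = 0 ∧ d2 (d2 par) u = 0 := by
  have e1 : d1 par = fun v : E2 => v.1 := funext par_d1
  have e2 : d2 par = fun _ : E2 => (0 : ℝ) := funext par_d2
  simp [e1, e2, d1, d2, hasFDerivAt_fst.fderiv]

lemma d_add_apply {f g : E2 → ℝ} (hf : ContDiff ℝ ∞ f) (hg : ContDiff ℝ ∞ g) (u : E2) :
    d1 (fun v => f v + g v) u = d1 f u + d1 g u ∧ d2 (fun v => f v + g v) u = d2 f u + d2 g u := by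
  constructor <;>
    simp [d1, d2, fderiv_fun_add (hf.differentiable (by simp) u) (hg.differentiable (by simp) u)]

lemma second_add {f g : E2 → ℝ} (hf : ContDiff ℝ ∞ f) (hg : ContDiff ℝ ∞ g) (u : E2) :
    d1 (d1 fun v => f v + g v) u = d1 (d1 f) u + d1 (d1 g) u ∧
    d2 (d1 fun v => f v + g v) u = d2 (d1 f) u + d2 (d1 g) u ∧
    d2 (d2 fun v => f v + g v) u = d2 (d2 f) u + d2 (d2 g) u := by
  rw [show (d1 fun v => f v + g v) = fun v => d1 f v + d1 g v from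
      funext fun v => (d_add_apply hf hg v).1,
    show (d2 fun v => f v + g v) = fun v => d2 f v + d2 g v from
      funext fun v => (d_add_apply hf hg v).2]
  exact ⟨(d_add_apply (contDiff_d1g hf) (contDiff_d1g hg) u).1,
    (d_add_apply (contDiff_d1g hf) (contDiff_d1g hg) u).2,
    (d_add_apply (contDiff_d2g hf) (contDiff_d2g hg) u).2⟩

lemma d_const_mul {f : E2 → ℝ} (hf : ContDiff ℝ ∞ f) (a : ℝ) (u : E2) :
    d1 (fun v => a * f v) u = a * d1 f u ∧ d2 (fun v => a * f v) u = a * d2 f u := by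
  constructor <;> simp [d1, d2, fderiv_const_mul (hf.differentiable (by simp) u)]

lemma second_const_mul {f : E2 → ℝ} (hf : ContDiff ℝ ∞ f) (a : ℝ) (u : E2) :
    d1 (d1 fun v => a * f v) u = a * d1 (d1 f) u ∧
    d2 (d1 fun v => a * f v) u = a * d2 (d1 f) u ∧
    d2 (d2 fun v => a * f v) u = a * d2 (d2 f) u := by
  rw [show (d1 fun v => a * f v) = fun v => a * d1 f v from
      funext fun v => (d_const_mul hf a v).1,
    show (d2 fun v => a * f v) = fun v => a * d2 f v from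
      funext fun v => (d_const_mul hf a v).2]
  exact ⟨(d_const_mul (contDiff_d1g hf) a u).1, (d_const_mul (contDiff_d1g hf) a u).2,
    (d_const_mul (contDiff_d2g hf) a u).2⟩

lemma d_congr_all {f g : E2 → ℝ} {u : E2} (h : f =ᶠ[𝓝 u] g) :
    d1 f u = d1 g u ∧ d2 f u = d2 g u ∧ d1 (d1 f) u = d1 (d1 g) u ∧
      d2 (d1 f) u = d2 (d1 g) u ∧ d2 (d2 f) u = d2 (d2 g) u := by
  have h1 : d1 f =ᶠ[𝓝 u] d1 g := h.eventuallyEq_nhds.mono fun v hv => d1_congr hv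
  have h2 : d2 f =ᶠ[𝓝 u] d2 g := h.eventuallyEq_nhds.mono fun v hv => d2_congr hv
  exact ⟨d1_congr h, d2_congr h, d1_congr h1, d2_congr h1, d2_congr h2⟩

lemma inner_bounds {f : E2 → E3} {x : E2} (hf : ContDiffAt ℝ ∞ f x) {e : E3} (he : ‖e‖ = 1)
    (a : E3) {M : ℝ} {k : ℕ} (hk : 1 ≤ k) (hb : ‖iteratedFDeriv ℝ k f x‖ ≤ M) :
    ‖iteratedFDeriv ℝ k (fun y => ⟪e, f y - a⟫) x‖ ≤ M := by
  have hc : ContDiffAt ℝ (k : ℕ∞) (fun y => f y - a) x :=
    (hf.sub contDiffAt_const).of_le (by exact_mod_cast le_top)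
  rw [show (fun y => ⟪e, f y - a⟫) = ⇑(innerSL ℝ e) ∘ fun y => f y - a from rfl]
  refine (ContinuousLinearMap.norm_iteratedFDeriv_comp_left _ hc le_rfl).trans ?_
  rw [innerSL_apply_norm, he, one_mul,
    show (fun y => f y - a) = f - fun _ => a from rfl,
    iteratedFDeriv_sub_apply (hf.of_le (by exact_mod_cast le_top)) contDiffAt_const,
    iteratedFDeriv_const_of_ne (by omega)]
  simpa using hb

lemma inner_second {f : E2 → E3} {U : Set E2} (hU : IsOpen U) (hf : ContDiffOn ℝ ∞ f U) (e a : E3)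
    {x : E2} (hx : x ∈ U) :
    d1 (fun y => ⟪e, f y - a⟫) x = ⟪e, d1 f x⟫ ∧ d2 (fun y => ⟪e, f y - a⟫) x = ⟪e, d2 f x⟫ ∧
      d1 (d1 fun y => ⟪e, f y - a⟫) x = ⟪e, d1 (d1 f) x⟫ ∧
      d2 (d1 fun y => ⟪e, f y - a⟫) x = ⟪e, d2 (d1 f) x⟫ ∧
      d2 (d2 fun y => ⟪e, f y - a⟫) x = ⟪e, d2 (d2 f) x⟫ := by
  have key : ∀ g : E2 → E3, ∀ b : E3, ∀ y : E2, DifferentiableAt ℝ g y → ∀ v : E2,
      fderiv ℝ (fun w => ⟪e, g w - b⟫) y v = ⟪e, fderiv ℝ g y v⟫ := fun g b y hg v => by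
    have h := (innerSL ℝ e).hasFDerivAt.comp y (hg.hasFDerivAt.sub_const b)
    rw [show (fun w => ⟪e, g w - b⟫) = ⇑(innerSL ℝ e) ∘ fun w => g w - b from rfl, h.fderiv]
    rfl
  have hd : ∀ g : E2 → E3, ContDiffOn ℝ ∞ g U → ∀ y ∈ U, DifferentiableAt ℝ g y := fun g hg y hy =>
    (hg.contDiffAt (hU.mem_nhds hy)).differentiableAt (by simp)
  have h1 : ∀ y ∈ U, d1 (fun w => ⟪e, f w - a⟫) y = ⟪e, d1 f y - 0⟫ := fun y hy => by
    rw [sub_zero]; exact key f a y (hd f hf y hy) _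
  have h2 : ∀ y ∈ U, d2 (fun w => ⟪e, f w - a⟫) y = ⟪e, d2 f y - 0⟫ := fun y hy => by
    rw [sub_zero]; exact key f a y (hd f hf y hy) _
  have e1 := eventuallyEq_of_mem (hU.mem_nhds hx) h1
  have e2 := eventuallyEq_of_mem (hU.mem_nhds hx) h2
  refine ⟨key f a x (hd f hf x hx) _, key f a x (hd f hf x hx) _, ?_, ?_, ?_⟩
  · rw [d1_congr e1]; exact key _ 0 x (hd _ (contDiffOn_d1W hU hf) x hx) _
  · rw [d2_congr e1]; exact key _ 0 x (hd _ (contDiffOn_d1W hU hf) x hx) _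
  · rw [d2_congr e2]; exact key _ 0 x (hd _ (contDiffOn_d2W hU hf) x hx) _

lemma abs_le_ball {g : E2 → ℝ} (hg : Differentiable ℝ g) (h0 : g 0 = 0) {C : ℝ} (hC : 0 ≤ C)
    (h : ∀ u ∈ closedBall (0 : E2) 7, ‖fderiv ℝ g u‖ ≤ C) :
    ∀ u ∈ closedBall (0 : E2) 7, |g u| ≤ 7 * C := by
  intro u hu
  have hm := (convex_closedBall (0 : E2) 7).norm_image_sub_le_of_norm_fderiv_le
    (fun v _ => hg v) h (mem_closedBall_self (by norm_num : (0:ℝ) ≤ 7)) hu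
  rw [h0, sub_zero, sub_zero, Real.norm_eq_abs] at hm
  rw [mem_closedBall, dist_zero_right] at hu
  calc |g u| ≤ C * ‖u‖ := hm
    _ ≤ C * 7 := mul_le_mul_of_nonneg_left hu hC
    _ = 7 * C := mul_comm _ _

end Vale.Agent.P229.Geom
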