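import Vale.Agent.P229.Geom.Normal

/-!
P229, geometry: the principal frame, a global extension, and the cutoff bound.
-/

namespace Vale.Agent.P229.Geom

open Set Filter Metric
open scoped ContDiff Topology RealInnerProductSpace

/-- The principal frame of a curved symmetric form, with a sign. -/
lemma axes (A B C M : ℝ) (hM : 0 < M) (h : 1 / M ≤ |A| + |B| + |C|) :
    ∃ c s ε a b : ℝ, c ^ 2 + s ^ 2 = 1 ∧ |ε| = 1 ∧
      c * s * (ε * C - ε * A) + (c ^ 2 - s ^ 2) * (ε * B) = 0 ∧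
      a = c ^ 2 * (ε * A) + 2 * c * s * (ε * B) + s ^ 2 * (ε * C) ∧
      b = s ^ 2 * (ε * A) - 2 * c * s * (ε * B) + c ^ 2 * (ε * C) ∧
      a * b = (ε * A) * (ε * C) - (ε * B) ^ 2 ∧ 1 / (3 * M) ≤ a ∧
      (∀ M', |A| ≤ M' → |B| ≤ M' → |C| ≤ M' → a ≤ 4 * M') := by
  obtain ⟨c, s, hcs, hoff, hbig⟩ := exists_rot A B C
  set a0 := c ^ 2 * A + 2 * c * s * B + s ^ 2 * C with ha0
  set b0 := s ^ 2 * A - 2 * c * s * B + c ^ 2 * C with hb0
  obtain ⟨ε, hε, hεa⟩ : ∃ ε : ℝ, |ε| = 1 ∧ ε * a0 = |a0| := by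
    rcases le_total 0 a0 with h' | h'
    · exact ⟨1, abs_one, by rw [one_mul, abs_of_nonneg h']⟩
    · exact ⟨-1, by simp, by rw [abs_of_nonpos h']; ring⟩
  have hε2 : ε ^ 2 = 1 := by rw [← sq_abs, hε, one_pow]
  have hfro : a0 ^ 2 + b0 ^ 2 = A ^ 2 + 2 * B ^ 2 + C ^ 2 := by
    have : a0 ^ 2 + b0 ^ 2 + 2 * (c * s * (C - A) + (c ^ 2 - s ^ 2) * B) ^ 2
        = (c ^ 2 + s ^ 2) ^ 2 * (A ^ 2 + 2 * B ^ 2 + C ^ 2) := by rw [ha0, hb0]; ring
    rw [hoff, hcs] at this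
    linarith
  have hprod : a0 * b0 = A * C - B ^ 2 := by
    have : a0 * b0 - (c * s * (C - A) + (c ^ 2 - s ^ 2) * B) ^ 2
        = (c ^ 2 + s ^ 2) ^ 2 * (A * C - B ^ 2) := by rw [ha0, hb0]; ring
    rw [hoff, hcs] at this
    linarith
  refine ⟨c, s, ε, |a0|, ε * b0, hcs, hε, ?_, ?_, ?_, ?_, ?_, ?_⟩
  · linear_combination ε * hoff
  · rw [← hεa, ha0]; ring
  · rw [hb0]; ring
  · rw [← hεa]; linear_combination ε ^ 2 * hprod
  · have h2 : b0 ^ 2 ≤ a0 ^ 2 := sq_le_sq.mpr hbig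
    have h3 : (|A| + |B| + |C|) ^ 2 ≤ (3 * |a0|) ^ 2 := by
      have := sq_abs A; have := sq_abs B; have := sq_abs C; have := sq_abs a0
      nlinarith [sq_nonneg (|A| - |B|), sq_nonneg (|A| - |C|), sq_nonneg (|B| - |C|)]
    have h4 := h.trans (abs_le_of_sq_le_sq' h3 (by positivity)).2
    rw [div_le_iff₀ (by positivity)] at h4 ⊢
    linarith
  · intro M' hA hB hC
    have hA2 : A ^ 2 ≤ M' ^ 2 := sq_le_sq' (abs_le.mp hA).1 (abs_le.mp hA).2
    have hB2 : B ^ 2 ≤ M' ^ 2 := sq_le_sq' (abs_le.mp hB).1 (abs_le.mp hB).2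
    have hC2 : C ^ 2 ≤ M' ^ 2 := sq_le_sq' (abs_le.mp hC).1 (abs_le.mp hC).2
    have hM' : 0 ≤ M' := (abs_nonneg A).trans hA
    refine (abs_le_of_sq_le_sq' ?_ (by positivity)).2
    rw [sq_abs]
    nlinarith [sq_nonneg b0]

/-- A smooth function on a ball extends from a smaller ball. -/
lemma extend_ball {z : E2 → ℝ} {x0 : E2} {ρ : ℝ} (hρ : 0 < ρ)
    (hz : ContDiffOn ℝ ∞ z (ball x0 (12 * ρ))) :
    ∃ zt : E2 → ℝ, ContDiff ℝ ∞ zt ∧ ∀ y ∈ ball x0 (23 / 2 * ρ), zt =ᶠ[𝓝 y] z := by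
  let χ : ContDiffBump x0 := ⟨23 / 2 * ρ, 239 / 20 * ρ, by positivity, by linarith⟩
  refine ⟨fun y => χ y * z y, ?_, fun y hy =>
    eventuallyEq_of_mem (isOpen_ball.mem_nhds hy) fun w hw => by
      simp only [χ.one_of_mem_closedBall (ball_subset_closedBall hw), one_mul]⟩
  rw [contDiff_iff_contDiffAt]
  intro y
  by_cases hy : y ∈ ball x0 (12 * ρ)
  · exact χ.contDiff.contDiffAt.mul (hz.contDiffAt (isOpen_ball.mem_nhds hy))
  · have hy' : y ∉ tsupport χ := by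
      rw [χ.tsupport_eq, mem_closedBall, not_le]
      rw [mem_ball, not_lt] at hy
      calc (239 / 20 * ρ) < 12 * ρ := by linarith
        _ ≤ dist y x0 := hy
    refine (contDiffAt_const (c := (0 : ℝ))).congr_of_eventuallyEq
      ((notMem_tsupport_iff_eventuallyEq.mp hy').mono fun w hw => ?_)
    simp only [show χ w = 0 from hw, zero_mul]

/-- The cutoff to the square of half side seven. -/
noncomputable def cut7 : ContDiffBump (0 : E2) := ⟨11 / 2, 7, by norm_num, by norm_num⟩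

/-- Functions that are small in second and higher derivatives stay small after the cutoff. -/
lemma cut_small :
    ∃ Cc : ℝ, 0 ≤ Cc ∧ ∀ (W : E2 → ℝ) (P : ℝ), 0 ≤ P → ContDiff ℝ ∞ W → W 0 = 0 →
      fderiv ℝ W 0 = 0 → ‖iteratedFDeriv ℝ 2 W 0‖ ≤ P →
      (∀ k, 3 ≤ k → k ≤ 6 → ∀ u ∈ closedBall (0 : E2) 7, ‖iteratedFDeriv ℝ k W u‖ ≤ P) →
      ∀ k ≤ 6, ∀ u, ‖iteratedFDeriv ℝ k (fun w => cut7 w * W w) u‖ ≤ Cc * P := by
  have hχb : ∀ k : ℕ, ∃ B : ℝ, 0 ≤ B ∧ ∀ u, ‖iteratedFDeriv ℝ k cut7 u‖ ≤ B := by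
    intro k
    obtain ⟨B, hB⟩ := (cut7.contDiff.continuous_iteratedFDeriv
      (show ((k : ℕ∞) : WithTop ℕ∞) ≤ ((⊤ : ℕ∞) : WithTop ℕ∞) from
        WithTop.coe_le_coe.mpr le_top)).bounded_above_of_compact_support
      (cut7.hasCompactSupport.iteratedFDeriv k)
    exact ⟨max B 0, le_max_right _ _, fun u => (hB u).trans (le_max_left _ _)⟩
  choose Bχ hBχ0 hBχ using hχb
  set Cχ := ∑ k ∈ Finset.range 7, Bχ k with hCχdef
  have hCχ0 : 0 ≤ Cχ := Finset.sum_nonneg fun k _ => hBχ0 k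
  have hCχ : ∀ k ≤ 6, ∀ u, ‖iteratedFDeriv ℝ k cut7 u‖ ≤ Cχ := fun k hk u =>
    (hBχ k u).trans (Finset.single_le_sum (fun j _ => hBχ0 j) (Finset.mem_range.mpr (by omega)))
  refine ⟨7 * (64 * Cχ * 400), by positivity,
    fun W P hP hW h0 h1 h2 h3 k hk u => ?_⟩
  by_cases hu : u ∈ closedBall (0 : E2) 7
  · have hW2 : ∀ v ∈ closedBall (0 : E2) 7, ‖iteratedFDeriv ℝ 2 W v‖ ≤ 8 * P := by
      intro v hv
      have hm := (convex_closedBall (0 : E2) 7).norm_image_sub_le_of_norm_fderiv_le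
        (fun w _ => (hW.differentiable_iteratedFDeriv (WithTop.coe_lt_coe.mpr
          (ENat.coe_lt_top 2))) w)
        (fun w hw => (norm_fderiv_iteratedFDeriv).le.trans (h3 3 le_rfl (by norm_num) w hw))
        (mem_closedBall_self (by norm_num : (0:ℝ) ≤ 7)) hv
      rw [mem_closedBall, dist_zero_right] at hv
      rw [sub_zero] at hm
      have h2' := norm_le_norm_add_norm_sub' (iteratedFDeriv ℝ 2 W v) (iteratedFDeriv ℝ 2 W 0)
      have h3' : P * ‖v‖ ≤ P * 7 := mul_le_mul_of_nonneg_left hv hP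
      linarith
    have hW1 : ∀ v ∈ closedBall (0 : E2) 7, ‖fderiv ℝ W v‖ ≤ 56 * P := by
      intro v hv
      have hm := (convex_closedBall (0 : E2) 7).norm_image_sub_le_of_norm_fderiv_le
        (fun w _ => ((hW.fderiv_right (m := ∞) le_rfl).differentiable (by simp)) w)
        (fun w hw => by rw [← norm_iterated_two]; exact hW2 w hw)
        (mem_closedBall_self (by norm_num : (0:ℝ) ≤ 7)) hv
      rw [h1, sub_zero, sub_zero] at hm
      rw [mem_closedBall, dist_zero_right] at hv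
      calc ‖fderiv ℝ W v‖ ≤ 8 * P * ‖v‖ := hm
        _ ≤ 8 * P * 7 := mul_le_mul_of_nonneg_left hv (by positivity)
        _ = 56 * P := by ring
    have hWall : ∀ j ≤ 6, ‖iteratedFDeriv ℝ j W u‖ ≤ 400 * P := by
      intro j hj
      rcases j with _ | _ | _ | j
      · rw [norm_iteratedFDeriv_zero, Real.norm_eq_abs]
        exact (abs_le_ball (hW.differentiable (by simp)) h0 (by positivity) hW1 u hu).trans
          (by linarith)
      · rw [norm_iteratedFDeriv_one]; exact (hW1 u hu).trans (by linarith)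
      · exact (hW2 u hu).trans (by linarith)
      · exact (h3 _ (by omega) hj u hu).trans (by linarith)
    refine (norm_iteratedFDeriv_mul_le (n := k) cut7.contDiff hW u
      (WithTop.coe_le_coe.mpr le_top)).trans ?_
    calc ∑ i ∈ Finset.range (k + 1), (k.choose i : ℝ) * ‖iteratedFDeriv ℝ i cut7 u‖ *
          ‖iteratedFDeriv ℝ (k - i) W u‖
        ≤ ∑ i ∈ Finset.range (k + 1), (64 : ℝ) * Cχ * (400 * P) := by
          refine Finset.sum_le_sum fun i hi => ?_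
          have hi' : i ≤ k := Nat.lt_succ_iff.mp (Finset.mem_range.mp hi)
          have hch : (k.choose i : ℝ) ≤ 64 := by
            have h := Nat.choose_le_two_pow k i
            have h' : 2 ^ k ≤ 2 ^ 6 := Nat.pow_le_pow_right (by norm_num) hk
            exact_mod_cast h.trans h'
          exact mul_le_mul (mul_le_mul hch (hCχ i (by omega) u) (norm_nonneg _) (by norm_num))
            (hWall (k - i) (by omega)) (norm_nonneg _) (by positivity)
      _ ≤ 7 * (64 * Cχ * (400 * P)) := by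
          rw [Finset.sum_const, Finset.card_range, nsmul_eq_mul]
          refine mul_le_mul_of_nonneg_right ?_ (by positivity)
          exact_mod_cast Nat.succ_le_succ hk
      _ = 7 * (64 * Cχ * 400) * P := by ring
  · have h0' : u ∉ tsupport (fun w => cut7 w * W w) := fun h =>
      hu (by
        have h' := tsupport_mul_subset_left h
        rwa [cut7.tsupport_eq] at h')
    rw [image_eq_zero_of_notMem_tsupport
      (fun h => h0' (tsupport_iteratedFDeriv_subset (𝕜 := ℝ) k h)), norm_zero]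
    positivity

/-- The determinant of the covariant Hessian in a rotated and rescaled frame. -/
lemma eqn_transfer {ρ lam s c sn p1 p2 q1 q2 A B C T G : ℝ} (hρ : 0 < ρ) (hlam : 0 < lam)
    (hcs : c ^ 2 + sn ^ 2 = 1)
    (h : (A - (s / ρ * q1 * p1 - s / ρ * q2 * p2)) * (C + (s / ρ * q1 * p1 - s / ρ * q2 * p2))
        - (B - (s / ρ * q2 * p1 + s / ρ * q1 * p2)) ^ 2
      = -(s / ρ ^ 2 * T) * (G - (p1 ^ 2 + p2 ^ 2))) :
    let P1 := 1 / lam * (c * p1 + sn * p2)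
    let P2 := 1 / lam * (-sn * p1 + c * p2)
    let Q1 := c * q1 + sn * q2
    let Q2 := -sn * q1 + c * q2
    (ρ / lam * (c ^ 2 * A + 2 * c * sn * B + sn ^ 2 * C) - s * (Q1 * P1 - Q2 * P2))
        * (ρ / lam * (sn ^ 2 * A - 2 * c * sn * B + c ^ 2 * C) + s * (Q1 * P1 - Q2 * P2))
      - (ρ / lam * (c * sn * (C - A) + (c ^ 2 - sn ^ 2) * B) - s * (Q2 * P1 + Q1 * P2)) ^ 2
      = -(s / lam ^ 2) * T * (G - lam ^ 2 * (P1 ^ 2 + P2 ^ 2)) := by
  intro P1 P2 Q1 Q2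
  set D := s / ρ * q1 * p1 - s / ρ * q2 * p2 with hD
  set E := s / ρ * q2 * p1 + s / ρ * q1 * p2 with hE
  have e1 : s * (Q1 * P1 - Q2 * P2) = ρ / lam * ((c ^ 2 - sn ^ 2) * D + 2 * c * sn * E) := by
    simp only [P1, P2, Q1, Q2, hD, hE]; field_simp; ring
  have e2 : s * (Q2 * P1 + Q1 * P2) = ρ / lam * ((c ^ 2 - sn ^ 2) * E - 2 * c * sn * D) := by
    simp only [P1, P2, Q1, Q2, hD, hE]; field_simp; ring
  have e3 : lam ^ 2 * (P1 ^ 2 + P2 ^ 2) = (c ^ 2 + sn ^ 2) * (p1 ^ 2 + p2 ^ 2) := by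
    simp only [P1, P2]; field_simp; ring
  rw [e1, e2, e3, hcs, one_mul]
  have e4 : (ρ / lam * (c ^ 2 * A + 2 * c * sn * B + sn ^ 2 * C)
        - ρ / lam * ((c ^ 2 - sn ^ 2) * D + 2 * c * sn * E))
        * (ρ / lam * (sn ^ 2 * A - 2 * c * sn * B + c ^ 2 * C)
        + ρ / lam * ((c ^ 2 - sn ^ 2) * D + 2 * c * sn * E))
      - (ρ / lam * (c * sn * (C - A) + (c ^ 2 - sn ^ 2) * B)
        - ρ / lam * ((c ^ 2 - sn ^ 2) * E - 2 * c * sn * D)) ^ 2
      = (ρ / lam) ^ 2 * (c ^ 2 + sn ^ 2) ^ 2 * ((A - D) * (C + D) - (B - E) ^ 2) := by ring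
  rw [e4, h, hcs]
  field_simp

end Vale.Agent.P229.Geom
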